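import Vale.Agent.Lib.P129.helper53.Reduction

/-!
# P129: the separable quotient problem reduces to Banach spaces with a countable separating
family of functionals (these have cardinality at most continuum)

`HasSepQuot K X` is the problem's own equivalent form of the statement that the Banach space `X`
over `K` has a separable infinite-dimensional quotient: there are a separable
infinite-dimensional Banach space `Z` over `K` and a bounded linear map of `X` onto `Z`.
`CountablySeparated K X` says that there is a sequence of bounded linear functionals on `X`
such that `0` is the only point on which all of them vanish.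

For `K = ℝ` and for `K = ℂ` (Banach spaces in one universe of types):

1. every infinite-dimensional Banach space `X` has a closed subspace `N` such that the quotient
   `X ⧸ N` is infinite-dimensional and countably separated;
2. every infinite-dimensional Banach space has a separable infinite-dimensional quotient if and
   only if every countably separated infinite-dimensional Banach space has one;
3. a countably separated normed space has cardinality at most continuum.
-/

namespace Vale.Agent.Results.P129.ContinuumReduction

open Vale.Agent.Lib.P129.H53

universe u

theorem result :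
    ((∀ (X : Type u) [NormedAddCommGroup X] [NormedSpace ℝ X] [CompleteSpace X],
        ¬ FiniteDimensional ℝ X →
        ∃ N : Submodule ℝ X, IsClosed (N : Set X) ∧ ¬ FiniteDimensional ℝ (X ⧸ N) ∧
          CountablySeparated ℝ (X ⧸ N)) ∧
      ((∀ (X : Type u) [NormedAddCommGroup X] [NormedSpace ℝ X] [CompleteSpace X],
          ¬ FiniteDimensional ℝ X → HasSepQuot ℝ X) ↔
        (∀ (X : Type u) [NormedAddCommGroup X] [NormedSpace ℝ X] [CompleteSpace X],
          ¬ FiniteDimensional ℝ X → CountablySeparated ℝ X → HasSepQuot ℝ X)) ∧
      (∀ (X : Type u) [NormedAddCommGroup X] [NormedSpace ℝ X],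
        CountablySeparated ℝ X → Cardinal.mk X ≤ Cardinal.continuum)) ∧
    ((∀ (X : Type u) [NormedAddCommGroup X] [NormedSpace ℂ X] [CompleteSpace X],
        ¬ FiniteDimensional ℂ X →
        ∃ N : Submodule ℂ X, IsClosed (N : Set X) ∧ ¬ FiniteDimensional ℂ (X ⧸ N) ∧
          CountablySeparated ℂ (X ⧸ N)) ∧
      ((∀ (X : Type u) [NormedAddCommGroup X] [NormedSpace ℂ X] [CompleteSpace X],
          ¬ FiniteDimensional ℂ X → HasSepQuot ℂ X) ↔
        (∀ (X : Type u) [NormedAddCommGroup X] [NormedSpace ℂ X] [CompleteSpace X],
          ¬ FiniteDimensional ℂ X → CountablySeparated ℂ X → HasSepQuot ℂ X)) ∧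
      (∀ (X : Type u) [NormedAddCommGroup X] [NormedSpace ℂ X],
        CountablySeparated ℂ X → Cardinal.mk X ≤ Cardinal.continuum)) :=
  ⟨⟨fun X _ _ _ hX => exists_small_quotient ℝ X hX, reduction ℝ,
      fun X _ _ h => card_le_of_separating ℝ Cardinal.mk_real.le X h⟩,
    ⟨fun X _ _ _ hX => exists_small_quotient ℂ X hX, reduction ℂ,
      fun X _ _ h => card_le_of_separating ℂ Cardinal.mk_complex.le X h⟩⟩

end Vale.Agent.Results.P129.ContinuumReduction
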